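import Mathlib

/-!
# The set Delta(X) and the canonical retraction onto extremal functions
-/

namespace Vale.Agent.Lib.P172

open Filter Topology

variable {X : Type*} [MetricSpace X]

/-- `f` lies in Delta(X). -/
def InDelta (f : X → ℝ) : Prop := ∀ x y, dist x y ≤ f x + f y

/-- `f` is an extremal function on `X`. -/
def Extremal (f : X → ℝ) : Prop :=
  InDelta f ∧ ∀ x, ∀ ε > 0, ∃ y, f x + f y < dist x y + ε

noncomputable def star (f : X → ℝ) (x : X) : ℝ := ⨆ y, (dist x y - f y)

noncomputable def qmap (f : X → ℝ) (x : X) : ℝ := (f x + star f x) / 2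

noncomputable def pmap (f : X → ℝ) (x : X) : ℝ := ⨅ n : ℕ, (qmap^[n] f) x

lemma InDelta.nonneg {f : X → ℝ} (hf : InDelta f) (x : X) : 0 ≤ f x := by
  have := hf x x
  simp at this
  linarith

lemma star_bdd {f : X → ℝ} (hf : InDelta f) (x : X) :
    BddAbove (Set.range fun y => dist x y - f y) := by
  refine ⟨f x, ?_⟩
  rintro _ ⟨y, rfl⟩
  have := hf x y
  simp only
  linarith

lemma star_le {f : X → ℝ} (hf : InDelta f) (x : X) : star f x ≤ f x := by
  have : Nonempty X := ⟨x⟩
  refine ciSup_le fun y => ?_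
  have := hf x y
  linarith

lemma le_star {f : X → ℝ} (hf : InDelta f) (x y : X) : dist x y - f y ≤ star f x :=
  le_ciSup (star_bdd hf x) y

lemma qmap_inDelta {f : X → ℝ} (hf : InDelta f) : InDelta (qmap f) := by
  intro x y
  have h1 := le_star hf x y
  have h2 := le_star hf y x
  rw [dist_comm y x] at h2
  unfold qmap
  linarith

lemma qmap_le {f : X → ℝ} (hf : InDelta f) (x : X) : qmap f x ≤ f x := by
  have := star_le hf x
  unfold qmap
  linarith

lemma iter_inDelta {f : X → ℝ} (hf : InDelta f) (n : ℕ) : InDelta (qmap^[n] f) := by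
  induction n with
  | zero => simpa using hf
  | succ n ih =>
    rw [Function.iterate_succ_apply']
    exact qmap_inDelta ih

lemma iter_antitone {f : X → ℝ} (hf : InDelta f) (x : X) :
    Antitone (fun n : ℕ => (qmap^[n] f) x) := by
  refine antitone_nat_of_succ_le fun n => ?_
  rw [Function.iterate_succ_apply']
  exact qmap_le (iter_inDelta hf n) x

lemma iter_bddBelow {f : X → ℝ} (hf : InDelta f) (x : X) :
    BddBelow (Set.range fun n : ℕ => (qmap^[n] f) x) := by
  refine ⟨0, ?_⟩
  rintro _ ⟨n, rfl⟩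
  exact (iter_inDelta hf n).nonneg x

lemma pmap_tendsto {f : X → ℝ} (hf : InDelta f) (x : X) :
    Tendsto (fun n : ℕ => (qmap^[n] f) x) atTop (𝓝 (pmap f x)) :=
  tendsto_atTop_ciInf (iter_antitone hf x) (iter_bddBelow hf x)

lemma pmap_le_iter {f : X → ℝ} (hf : InDelta f) (n : ℕ) (x : X) :
    pmap f x ≤ (qmap^[n] f) x :=
  ciInf_le (iter_bddBelow hf x) n

lemma pmap_le {f : X → ℝ} (hf : InDelta f) (x : X) : pmap f x ≤ f x := by
  simpa using pmap_le_iter hf 0 x

lemma pmap_inDelta {f : X → ℝ} (hf : InDelta f) : InDelta (pmap f) := by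
  intro x y
  exact ge_of_tendsto' ((pmap_tendsto hf x).add (pmap_tendsto hf y))
    (fun n => iter_inDelta hf n x y)

lemma pmap_le_star {f : X → ℝ} (hf : InDelta f) (x : X) : pmap f x ≤ star (pmap f) x := by
  have hp := pmap_inDelta hf
  -- star (pmap f) x ≥ star (q^n f) x = 2 q^{n+1} f x - q^n f x
  have h1 : ∀ n : ℕ, 2 * (qmap^[n + 1] f) x - (qmap^[n] f) x ≤ star (pmap f) x := by
    intro n
    have e : 2 * (qmap^[n + 1] f) x - (qmap^[n] f) x = star (qmap^[n] f) x := by
      rw [Function.iterate_succ_apply']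
      unfold qmap
      ring
    rw [e]
    have : Nonempty X := ⟨x⟩
    refine ciSup_le fun y => ?_
    have := le_star hp x y
    have := pmap_le_iter hf n y
    linarith
  have h2 : Tendsto (fun n : ℕ => 2 * (qmap^[n + 1] f) x - (qmap^[n] f) x) atTop
      (𝓝 (2 * pmap f x - pmap f x)) := by
    have := (pmap_tendsto hf x)
    exact ((this.comp (tendsto_add_atTop_nat 1)).const_mul 2).sub this
  have h3 := le_of_tendsto' h2 h1
  linarith

lemma pmap_extremal {f : X → ℝ} (hf : InDelta f) : Extremal (pmap f) := by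
  refine ⟨pmap_inDelta hf, fun x ε hε => ?_⟩
  have : Nonempty X := ⟨x⟩
  have h := pmap_le_star hf x
  have : pmap f x - ε < star (pmap f) x := by linarith
  obtain ⟨y, hy⟩ := exists_lt_of_lt_ciSup this
  exact ⟨y, by linarith⟩

lemma star_lip {f g : X → ℝ} (hf : InDelta f) (hg : InDelta g) {r : ℝ}
    (h : ∀ x, |f x - g x| ≤ r) (x : X) : |star f x - star g x| ≤ r := by
  have : Nonempty X := ⟨x⟩
  rw [abs_sub_le_iff]
  constructor
  · have : star f x ≤ star g x + r := by
      refine ciSup_le fun y => ?_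
      have h1 := le_star hg x y
      have h2 := (abs_sub_le_iff.1 (h y)).2
      linarith
    linarith
  · have : star g x ≤ star f x + r := by
      refine ciSup_le fun y => ?_
      have h1 := le_star hf x y
      have h2 := (abs_sub_le_iff.1 (h y)).1
      linarith
    linarith

lemma qmap_lip {f g : X → ℝ} (hf : InDelta f) (hg : InDelta g) {r : ℝ}
    (h : ∀ x, |f x - g x| ≤ r) (x : X) : |qmap f x - qmap g x| ≤ r := by
  have h1 := abs_sub_le_iff.1 (star_lip hf hg h x)
  have h2 := abs_sub_le_iff.1 (h x)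
  rw [abs_sub_le_iff]
  unfold qmap
  constructor <;> linarith [h1.1, h1.2, h2.1, h2.2]

lemma iter_lip {f g : X → ℝ} (hf : InDelta f) (hg : InDelta g) {r : ℝ}
    (h : ∀ x, |f x - g x| ≤ r) (n : ℕ) (x : X) : |(qmap^[n] f) x - (qmap^[n] g) x| ≤ r := by
  induction n generalizing x with
  | zero => simpa using h x
  | succ n ih =>
    rw [Function.iterate_succ_apply', Function.iterate_succ_apply']
    exact qmap_lip (iter_inDelta hf n) (iter_inDelta hg n) ih x

lemma pmap_lip {f g : X → ℝ} (hf : InDelta f) (hg : InDelta g) {r : ℝ}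
    (h : ∀ x, |f x - g x| ≤ r) (x : X) : |pmap f x - pmap g x| ≤ r :=
  le_of_tendsto' ((pmap_tendsto hf x).sub (pmap_tendsto hg x)).abs
    (fun n => iter_lip hf hg h n x)

lemma star_eq_of_extremal {f : X → ℝ} (hf : Extremal f) (x : X) : star f x = f x := by
  refine le_antisymm (star_le hf.1 x) ?_
  refine le_of_forall_pos_le_add fun ε hε => ?_
  obtain ⟨y, hy⟩ := hf.2 x ε hε
  have := le_star hf.1 x y
  linarith

lemma qmap_eq_of_extremal {f : X → ℝ} (hf : Extremal f) : qmap f = f := by
  funext x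
  unfold qmap
  rw [star_eq_of_extremal hf x]
  ring

lemma pmap_eq_of_extremal {f : X → ℝ} (hf : Extremal f) : pmap f = f := by
  have h : ∀ n : ℕ, qmap^[n] f = f := by
    intro n
    exact Function.iterate_fixed (qmap_eq_of_extremal hf) n
  funext x
  unfold pmap
  simp [h]

/-- Equivariance under surjective isometries. -/
lemma star_comp (f : X → ℝ) (φ : X → X) (hs : Function.Surjective φ)
    (hi : ∀ x y, dist (φ x) (φ y) = dist x y) : star (f ∘ φ) = star f ∘ φ := by
  funext x
  unfold star
  simp only [Function.comp]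
  rw [← hs.iSup_comp (g := fun y => dist (φ x) y - f y)]
  simp [hi]

lemma qmap_comp (f : X → ℝ) (φ : X → X) (hs : Function.Surjective φ)
    (hi : ∀ x y, dist (φ x) (φ y) = dist x y) : qmap (f ∘ φ) = qmap f ∘ φ := by
  funext x
  unfold qmap
  rw [star_comp f φ hs hi]
  rfl

lemma iter_comp (f : X → ℝ) (φ : X → X) (hs : Function.Surjective φ)
    (hi : ∀ x y, dist (φ x) (φ y) = dist x y) (n : ℕ) :
    qmap^[n] (f ∘ φ) = (qmap^[n] f) ∘ φ := by
  induction n with
  | zero => rfl
  | succ n ih =>
    rw [Function.iterate_succ_apply', Function.iterate_succ_apply', ih, qmap_comp _ φ hs hi]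

lemma pmap_comp (f : X → ℝ) (φ : X → X) (hs : Function.Surjective φ)
    (hi : ∀ x y, dist (φ x) (φ y) = dist x y) : pmap (f ∘ φ) = pmap f ∘ φ := by
  funext x
  unfold pmap
  simp only [iter_comp f φ hs hi, Function.comp]

/-- Extremal functions are 1-Lipschitz in the strong form. -/
lemma Extremal.le_dist_add {f : X → ℝ} (hf : Extremal f) (x z : X) : f x ≤ dist x z + f z := by
  refine le_of_forall_pos_le_add fun ε hε => ?_
  obtain ⟨y, hy⟩ := hf.2 x ε hε
  have h1 := hf.1 z y
  have h2 := dist_triangle x z y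
  linarith

/-- If `f` is extremal, `g` in Delta and `g ≤ f + r`, then `f ≤ g + r`. -/
lemma Extremal.le_add_of_le_add {f g : X → ℝ} (hf : Extremal f) (hg : InDelta g) {r : ℝ}
    (h : ∀ x, g x ≤ f x + r) (x : X) : f x ≤ g x + r := by
  refine le_of_forall_pos_le_add fun ε hε => ?_
  obtain ⟨y, hy⟩ := hf.2 x ε hε
  have h1 := hg x y
  have h2 := h y
  linarith

lemma extremal_dist (z : X) : Extremal (fun x => dist x z) := by
  refine ⟨fun x y => ?_, fun x ε hε => ⟨z, ?_⟩⟩
  · have := dist_triangle x z y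
    rw [dist_comm z y] at this
    exact this
  · simp only [dist_self]
    linarith

lemma inDelta_convex {f g : X → ℝ} (hf : InDelta f) (hg : InDelta g) {t : ℝ} (h0 : 0 ≤ t)
    (h1 : t ≤ 1) : InDelta (fun x => (1 - t) * f x + t * g x) := by
  intro x y
  have a := hf x y
  have b := hg x y
  have a' : (1 - t) * dist x y ≤ (1 - t) * (f x + f y) :=
    mul_le_mul_of_nonneg_left a (by linarith)
  have b' : t * dist x y ≤ t * (g x + g y) := mul_le_mul_of_nonneg_left b h0
  simp only
  nlinarith

end Vale.Agent.Lib.P172
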