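import Mathlib
import Vale.Agent.Lib.P172.Delta

/-!
# The injective hull E(X) as a metric space
-/

namespace Vale.Agent.Lib.P172

open Filter Topology

variable {X : Type*} [MetricSpace X]

/-- The injective hull (tight span) of `X`. -/
structure Hull (X : Type*) [MetricSpace X] where
  val : X → ℝ
  property : Extremal val

namespace Hull

lemma ext'' {f g : Hull X} (h : f.1 = g.1) : f = g := by
  cases f
  cases g
  simp only at h
  subst h
  rfl

lemma ext' {f g : Hull X} (h : ∀ x, f.1 x = g.1 x) : f = g := ext'' (funext h)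

lemma abs_sub_dist_le (f : Hull X) (x z : X) : |f.1 x - dist x z| ≤ f.1 z := by
  rw [abs_sub_le_iff]
  have h1 := f.2.le_dist_add x z
  have h2 := f.2.1 x z
  constructor <;> linarith

lemma bdd (f g : Hull X) : BddAbove (Set.range fun x => |f.1 x - g.1 x|) := by
  rcases isEmpty_or_nonempty X with h | ⟨⟨z⟩⟩
  · rw [Set.range_eq_empty]
    exact bddAbove_empty
  · refine ⟨f.1 z + g.1 z, ?_⟩
    rintro _ ⟨x, rfl⟩
    have h1 := abs_sub_le_iff.1 (abs_sub_dist_le f x z)
    have h2 := abs_sub_le_iff.1 (abs_sub_dist_le g x z)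
    simp only
    rw [abs_sub_le_iff]
    constructor <;> linarith [h1.1, h1.2, h2.1, h2.2]

noncomputable instance : Dist (Hull X) := ⟨fun f g => ⨆ x, |f.1 x - g.1 x|⟩

lemma dist_def (f g : Hull X) : dist f g = ⨆ x, |f.1 x - g.1 x| := rfl

lemma abs_sub_le_dist (f g : Hull X) (x : X) : |f.1 x - g.1 x| ≤ dist f g :=
  le_ciSup (bdd f g) x

lemma dist_le_of (f g : Hull X) {r : ℝ} (hr : 0 ≤ r) (h : ∀ x, |f.1 x - g.1 x| ≤ r) :
    dist f g ≤ r :=
  Real.iSup_le h hr

lemma dist_nonneg' (f g : Hull X) : 0 ≤ dist f g :=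
  Real.iSup_nonneg fun _ => abs_nonneg _

noncomputable instance : MetricSpace (Hull X) where
  dist_self f := by
    rw [dist_def]
    simp
  dist_comm f g := by
    rw [dist_def, dist_def]
    congr 1
    funext x
    exact abs_sub_comm _ _
  dist_triangle f g h := by
    refine dist_le_of f h (add_nonneg (dist_nonneg' _ _) (dist_nonneg' _ _)) fun x => ?_
    have h1 := abs_sub_le_dist f g x
    have h2 := abs_sub_le_dist g h x
    have h3 := abs_sub_le (f.1 x) (g.1 x) (h.1 x)
    linarith
  eq_of_dist_eq_zero {f g} h := by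
    refine ext' fun x => ?_
    have h1 := abs_sub_le_dist f g x
    rw [h] at h1
    have := abs_nonpos_iff.1 h1
    linarith

instance : CompleteSpace (Hull X) := by
  refine Metric.complete_of_cauchySeq_tendsto fun u hu => ?_
  obtain ⟨b, hb0, hb, hblim⟩ := cauchySeq_iff_le_tendsto_0.1 hu
  have hc : ∀ x, CauchySeq (fun n => (u n).1 x) := by
    intro x
    refine cauchySeq_iff_le_tendsto_0.2 ⟨b, hb0, fun n m N hn hm => ?_, hblim⟩
    rw [Real.dist_eq]
    exact (abs_sub_le_dist _ _ x).trans (hb n m N hn hm)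
  choose F hF using fun x => cauchySeq_tendsto_of_complete (hc x)
  have hclose : ∀ N n, N ≤ n → ∀ x, |(u n).1 x - F x| ≤ b N := by
    intro N n hn x
    have ht : Tendsto (fun m => |(u n).1 x - (u m).1 x|) atTop (𝓝 |(u n).1 x - F x|) :=
      (tendsto_const_nhds.sub (hF x)).abs
    refine le_of_tendsto ht ?_
    filter_upwards [eventually_ge_atTop N] with m hm
    exact (abs_sub_le_dist _ _ x).trans (hb n m N hn hm)
  have hFe : Extremal F := by
    refine ⟨fun x y => ?_, fun x ε hε => ?_⟩
    · exact ge_of_tendsto' ((hF x).add (hF y)) (fun n => (u n).2.1 x y)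
    · obtain ⟨N, hN⟩ := ((tendsto_order.1 hblim).2 (ε / 3) (by positivity)).exists
      obtain ⟨y, hy⟩ := (u N).2.2 x (ε / 3) (by positivity)
      refine ⟨y, ?_⟩
      have h1 := abs_sub_le_iff.1 (hclose N N le_rfl x)
      have h2 := abs_sub_le_iff.1 (hclose N N le_rfl y)
      linarith [h1.1, h1.2, h2.1, h2.2]
  refine ⟨⟨F, hFe⟩, ?_⟩
  rw [tendsto_iff_dist_tendsto_zero]
  refine squeeze_zero (fun n => dist_nonneg) (fun n => ?_) hblim
  exact dist_le_of _ _ (hb0 n) (fun x => hclose n n le_rfl x)

/-- The canonical (Kuratowski) embedding of `X` in its hull. -/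
def emb (z : X) : Hull X := ⟨fun x => dist x z, extremal_dist z⟩

lemma dist_emb (f : Hull X) (z : X) : dist f (emb z) = f.1 z := by
  refine le_antisymm (dist_le_of _ _ (f.2.1.nonneg z) fun x => abs_sub_dist_le f x z) ?_
  have := abs_sub_le_dist f (emb z) z
  simp only [emb, dist_self, sub_zero] at this
  exact (le_abs_self _).trans this

lemma dist_emb_emb (x z : X) : dist (emb x) (emb z) = dist x z := by
  rw [dist_emb]
  simp [emb, dist_comm]

/-- the retraction applied to an element of Delta -/
noncomputable def proj (f : X → ℝ) (hf : InDelta f) : Hull X := ⟨pmap f, pmap_extremal hf⟩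

lemma proj_coe (f : Hull X) : proj f.1 f.2.1 = f := ext'' (pmap_eq_of_extremal f.2)

lemma dist_proj_le {f g : X → ℝ} (hf : InDelta f) (hg : InDelta g) {r : ℝ} (hr : 0 ≤ r)
    (h : ∀ x, |f x - g x| ≤ r) : dist (proj f hf) (proj g hg) ≤ r :=
  dist_le_of _ _ hr (fun x => pmap_lip hf hg h x)

lemma dist_le_of_le_add (g f : Hull X) {r : ℝ} (hr : 0 ≤ r) (h : ∀ x, g.1 x ≤ f.1 x + r) :
    dist g f ≤ r := by
  refine dist_le_of _ _ hr fun x => ?_
  rw [abs_sub_le_iff]
  have h1 := h x
  have h2 := f.2.le_add_of_le_add g.2.1 h x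
  constructor <;> linarith

/-- Hyperconvexity of the hull. -/
theorem hyperconvex [Nonempty X] {ι : Type*} (c : ι → Hull X) (r : ι → ℝ)
    (h : ∀ i j, dist (c i) (c j) ≤ r i + r j) : ∃ y : Hull X, ∀ i, dist y (c i) ≤ r i := by
  rcases isEmpty_or_nonempty ι with hι | hι
  · exact ⟨emb (Classical.arbitrary X), fun i => (hι.false i).elim⟩
  have hr : ∀ i, 0 ≤ r i := by
    intro i
    have := h i i
    rw [dist_self] at this
    linarith
  have hbdd : ∀ x, BddBelow (Set.range fun i => (c i).1 x + r i) := by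
    intro x
    refine ⟨0, ?_⟩
    rintro _ ⟨i, rfl⟩
    exact add_nonneg ((c i).2.1.nonneg x) (hr i)
  have hD : InDelta (fun x => ⨅ i, ((c i).1 x + r i)) := by
    intro x y
    refine le_ciInf_add_ciInf fun i j => ?_
    have h1 := (abs_sub_le_iff.1 (abs_sub_le_dist (c i) (c j) y)).1
    have h2 := h i j
    have h3 := (c i).2.1 x y
    linarith
  refine ⟨proj _ hD, fun i => dist_le_of_le_add _ _ (hr i) fun x => ?_⟩
  exact (pmap_le hD x).trans (ciInf_le (hbdd x) i)

/-- Injectivity of the hull: 1-Lipschitz maps from subsets extend. -/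
theorem injective [Nonempty X] {B : Type*} [PseudoMetricSpace B] (A : Set B) (φ : A → Hull X)
    (hφ : LipschitzWith 1 φ) : ∃ Φ : B → Hull X, LipschitzWith 1 Φ ∧ ∀ a : A, Φ a = φ a := by
  rcases isEmpty_or_nonempty A with hA | hA
  · exact ⟨fun _ => emb (Classical.arbitrary X), (LipschitzWith.const _).weaken zero_le_one,
      fun a => (hA.false a).elim⟩
  have hφ' : ∀ a a' : A, dist (φ a) (φ a') ≤ dist (a : B) a' := by
    intro a a'
    have := hφ.dist_le_mul a a'
    simp only [NNReal.coe_one, one_mul] at this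
    exact this
  have hbdd : ∀ b x, BddBelow (Set.range fun a : A => (φ a).1 x + dist (a : B) b) := by
    intro b x
    refine ⟨0, ?_⟩
    rintro _ ⟨i, rfl⟩
    exact add_nonneg ((φ i).2.1.nonneg x) dist_nonneg
  have hD : ∀ b, InDelta (fun x => ⨅ a : A, ((φ a).1 x + dist (a : B) b)) := by
    intro b x y
    refine le_ciInf_add_ciInf fun i j => ?_
    have h1 := (abs_sub_le_iff.1 (abs_sub_le_dist (φ i) (φ j) y)).1
    have h2 := hφ' i j
    have h3 := (φ i).2.1 x y
    have h4 := dist_triangle_right (i : B) j b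
    linarith
  refine ⟨fun b => proj _ (hD b), ?_, fun a => ?_⟩
  · refine LipschitzWith.of_dist_le_mul fun b b' => ?_
    simp only [NNReal.coe_one, one_mul]
    refine dist_proj_le _ _ dist_nonneg fun x => ?_
    rw [abs_sub_le_iff]
    constructor
    · have : (⨅ a : A, ((φ a).1 x + dist (a : B) b)) ≤
          (⨅ a : A, ((φ a).1 x + dist (a : B) b')) + dist b b' := by
        rw [← sub_le_iff_le_add]
        refine le_ciInf fun a => ?_
        have h1 := ciInf_le (hbdd b x) a
        have h2 := dist_triangle (a : B) b' b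
        rw [dist_comm b' b] at h2
        linarith
      linarith
    · have : (⨅ a : A, ((φ a).1 x + dist (a : B) b')) ≤
          (⨅ a : A, ((φ a).1 x + dist (a : B) b)) + dist b b' := by
        rw [← sub_le_iff_le_add]
        refine le_ciInf fun a => ?_
        have h1 := ciInf_le (hbdd b' x) a
        have h2 := dist_triangle (a : B) b b'
        linarith
      linarith
  · have e : (fun x => ⨅ a' : A, ((φ a').1 x + dist (a' : B) a)) = (φ a).1 := by
      funext x
      refine le_antisymm ?_ ?_
      · have h1 := ciInf_le (hbdd a x) a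
        simpa using h1
      · refine le_ciInf fun a' => ?_
        have h1 := (abs_sub_le_iff.1 (abs_sub_le_dist (φ a) (φ a') x)).1
        have h2 := hφ' a a'
        rw [dist_comm (a : B)] at h2
        linarith
    refine ext'' ?_
    show pmap _ = _
    rw [e]
    exact pmap_eq_of_extremal (φ a).2

end Hull

end Vale.Agent.Lib.P172
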