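import Mathlib
import Vale.Agent.Lib.P172.Hull

/-!
# The conical bicombing on E(X) and the induced isometric action
-/

namespace Vale.Agent.Lib.P172

open Filter Topology

variable {X : Type*} [MetricSpace X]

namespace Hull

/-- The bicombing: retract the affine segment. -/
noncomputable def comb (f g : Hull X) (t : unitInterval) : Hull X :=
  proj (fun x => (1 - (t : ℝ)) * f.1 x + t * g.1 x) (inDelta_convex f.2.1 g.2.1 t.2.1 t.2.2)

lemma comb_zero (f g : Hull X) : comb f g 0 = f := by
  refine ext'' ?_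
  show pmap _ = _
  have : (fun x => (1 - ((0 : unitInterval) : ℝ)) * f.1 x + ((0 : unitInterval) : ℝ) * g.1 x)
      = f.1 := by
    funext x
    simp
  rw [this]
  exact pmap_eq_of_extremal f.2

lemma comb_one (f g : Hull X) : comb f g 1 = g := by
  refine ext'' ?_
  show pmap _ = _
  have : (fun x => (1 - ((1 : unitInterval) : ℝ)) * f.1 x + ((1 : unitInterval) : ℝ) * g.1 x)
      = g.1 := by
    funext x
    simp
  rw [this]
  exact pmap_eq_of_extremal g.2

lemma dist_comb_le (f g : Hull X) (s t : unitInterval) :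
    dist (comb f g s) (comb f g t) ≤ |(s : ℝ) - t| * dist f g := by
  refine dist_proj_le _ _ (mul_nonneg (abs_nonneg _) dist_nonneg) fun x => ?_
  have e : (1 - (s : ℝ)) * f.1 x + s * g.1 x - ((1 - (t : ℝ)) * f.1 x + t * g.1 x)
      = -(((s : ℝ) - t) * (f.1 x - g.1 x)) := by ring
  rw [e, abs_neg, abs_mul]
  exact mul_le_mul_of_nonneg_left (abs_sub_le_dist f g x) (abs_nonneg _)

lemma dist_comb_aux (f g : Hull X) (s t : unitInterval) (hst : (s : ℝ) ≤ t) :
    dist (comb f g s) (comb f g t) = |(s : ℝ) - t| * dist f g := by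
  refine le_antisymm (dist_comb_le f g s t) ?_
  have h1 := dist_comb_le f g 0 s
  have h2 := dist_comb_le f g t 1
  rw [comb_zero] at h1
  rw [comb_one] at h2
  have h3 := dist_triangle4 f (comb f g s) (comb f g t) g
  have e1 : |((0 : unitInterval) : ℝ) - s| = s := by
    simp [abs_of_nonneg s.2.1]
  have e2 : |(t : ℝ) - ((1 : unitInterval) : ℝ)| = 1 - t := by
    rw [abs_sub_comm]
    simp only [Set.Icc.coe_one]
    exact abs_of_nonneg (by linarith [t.2.2])
  have e3 : |(s : ℝ) - t| = t - s := by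
    rw [abs_sub_comm]
    exact abs_of_nonneg (by linarith)
  rw [e1] at h1
  rw [e2] at h2
  rw [e3]
  nlinarith

lemma dist_comb (f g : Hull X) (s t : unitInterval) :
    dist (comb f g s) (comb f g t) = |(s : ℝ) - t| * dist f g := by
  rcases le_total (s : ℝ) t with h | h
  · exact dist_comb_aux f g s t h
  · rw [dist_comm, abs_sub_comm]
    exact dist_comb_aux f g t s h

lemma dist_comb_comb_le (f g f' g' : Hull X) (t : unitInterval) :
    dist (comb f g t) (comb f' g' t) ≤ (1 - (t : ℝ)) * dist f f' + t * dist g g' := by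
  have ht0 := t.2.1
  have ht1 := t.2.2
  refine dist_proj_le _ _ (add_nonneg (mul_nonneg (by linarith) dist_nonneg)
    (mul_nonneg ht0 dist_nonneg)) fun x => ?_
  have e : (1 - (t : ℝ)) * f.1 x + t * g.1 x - ((1 - (t : ℝ)) * f'.1 x + t * g'.1 x)
      = (1 - (t : ℝ)) * (f.1 x - f'.1 x) + t * (g.1 x - g'.1 x) := by ring
  rw [e]
  refine (abs_add_le _ _).trans ?_
  rw [abs_mul, abs_mul, abs_of_nonneg ht0, abs_of_nonneg (by linarith : (0 : ℝ) ≤ 1 - t)]
  exact add_le_add (mul_le_mul_of_nonneg_left (abs_sub_le_dist f f' x) (by linarith))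
    (mul_le_mul_of_nonneg_left (abs_sub_le_dist g g' x) ht0)

lemma comb_symm (f g : Hull X) (t : unitInterval) :
    comb f g t = comb g f (unitInterval.symm t) := by
  refine ext'' ?_
  show pmap _ = pmap _
  congr 1
  funext x
  rw [unitInterval.coe_symm_eq]
  ring

section action

variable {Γ : Type*} [Group Γ] [MulAction Γ X] [IsIsometricSMul Γ X]

lemma extremal_smul (g : Γ) {f : X → ℝ} (hf : Extremal f) :
    Extremal (fun x => f (g⁻¹ • x)) := by
  refine ⟨fun x y => ?_, fun x ε hε => ?_⟩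
  · have := hf.1 (g⁻¹ • x) (g⁻¹ • y)
    rwa [dist_smul] at this
  · obtain ⟨y, hy⟩ := hf.2 (g⁻¹ • x) ε hε
    refine ⟨g • y, ?_⟩
    simp only [inv_smul_smul]
    have : dist x (g • y) = dist (g⁻¹ • x) y := by
      rw [← dist_smul g⁻¹ x (g • y), inv_smul_smul]
    rw [this]
    exact hy

instance : MulAction Γ (Hull X) where
  smul g f := ⟨fun x => f.1 (g⁻¹ • x), extremal_smul g f.2⟩
  one_smul f := by
    refine ext' fun x => ?_
    show f.1 ((1 : Γ)⁻¹ • x) = f.1 x
    simp
  mul_smul g h f := by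
    refine ext' fun x => ?_
    show f.1 ((g * h)⁻¹ • x) = f.1 (h⁻¹ • g⁻¹ • x)
    rw [mul_inv_rev, mul_smul]

lemma smul_apply (g : Γ) (f : Hull X) (x : X) : (g • f).1 x = f.1 (g⁻¹ • x) := rfl

lemma dist_smul_le (g : Γ) (f h : Hull X) : dist (g • f) (g • h) ≤ dist f h :=
  dist_le_of _ _ dist_nonneg fun x => abs_sub_le_dist f h (g⁻¹ • x)

instance : IsIsometricSMul Γ (Hull X) where
  isometry_smul g := by
    refine Isometry.of_dist_eq fun f h => le_antisymm (dist_smul_le g f h) ?_
    have := dist_smul_le g⁻¹ (g • f) (g • h)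
    rwa [inv_smul_smul, inv_smul_smul] at this

lemma smul_emb (g : Γ) (z : X) : g • (emb z : Hull X) = emb (g • z) := by
  refine ext' fun x => ?_
  show dist (g⁻¹ • x) z = dist x (g • z)
  rw [← dist_smul g (g⁻¹ • x) z, smul_inv_smul]

lemma smul_comb (g : Γ) (f h : Hull X) (t : unitInterval) :
    g • comb f h t = comb (g • f) (g • h) t := by
  refine ext'' ?_
  have := pmap_comp (fun x => (1 - (t : ℝ)) * f.1 x + t * h.1 x) (fun x : X => g⁻¹ • x)
    (MulAction.surjective g⁻¹) (fun x y => dist_smul g⁻¹ x y)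
  exact this.symm

end action

end Hull

end Vale.Agent.Lib.P172
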