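import Mathlib
import Vale.Agent.Lib.P172.Hull

/-!
# Discretely geodesic hyperbolic spaces: stable intervals, cone types
-/

namespace Vale.Agent.Lib.P172

open Filter Topology

/-- Discretely geodesic, locally finite, four-point hyperbolic metric spaces. -/
structure DiscGeo (X : Type*) [MetricSpace X] (δ : ℝ) : Prop where
  int : ∀ x y : X, ∃ n : ℕ, dist x y = n
  geo : ∀ (x y : X) (k : ℕ), (k : ℝ) ≤ dist x y → ∃ u, dist x u = k ∧ dist u y = dist x y - k
  fin : ∀ (x : X) (r : ℝ), (Metric.closedBall x r).Finite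
  four : ∀ w x y z : X,
    dist w x + dist y z ≤ max (dist w y + dist x z) (dist x y + dist w z) + δ

variable {X : Type*} [MetricSpace X] {δ : ℝ}

namespace DiscGeo

lemma delta_nonneg [Nonempty X] (H : DiscGeo X δ) : 0 ≤ δ := by
  have x := Classical.arbitrary X
  have := H.four x x x x
  simpa using this

/-- stable intervals -/
lemma stable (H : DiscGeo X δ) (x y y' v : X) (hyy' : dist y y' ≤ 1)
    (hv : dist x v + dist v y = dist x y) :
    ∃ v', dist x v' + dist v' y' = dist x y' ∧ dist v v' ≤ δ + 2 := by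
  have hδ : 0 ≤ δ := by
    have : Nonempty X := ⟨x⟩
    exact H.delta_nonneg
  obtain ⟨a, ha⟩ := H.int x v
  rcases le_or_gt (a : ℝ) (dist x y') with hle | hgt
  · obtain ⟨v', h1, h2⟩ := H.geo x y' a hle
    refine ⟨v', by rw [h1, h2]; ring, ?_⟩
    have h4 := H.four v v' x y
    have t1 := dist_triangle v' y' y
    have t2 := dist_triangle x y y'
    have t3 := dist_triangle x y' y
    rw [dist_comm y' y] at t1 t3
    rw [dist_comm v x, dist_comm v' x] at h4
    rcases max_le_iff.1 (le_refl (max (dist x v + dist v' y) (dist x v' + dist v y))) with ⟨_, _⟩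
    have hmax : max (dist x v + dist v' y) (dist x v' + dist v y) ≤ dist x y + 2 := by
      refine max_le ?_ ?_
      · linarith
      · linarith
    linarith
  · refine ⟨y', by simp, ?_⟩
    have t1 := dist_triangle v y y'
    have t2 := dist_triangle x y' y
    rw [dist_comm y' y] at t2
    linarith

/-- cone lemma -/
lemma cone (H : DiscGeo X δ) (x x' v : X)
    (hty : ∀ u, dist u v ≤ δ + 2 → dist x u - dist x v = dist x' u - dist x' v) :
    ∀ (n : ℕ) (y : X), dist v y = n → dist x v + dist v y = dist x y →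
      dist x' v + dist v y = dist x' y := by
  intro n
  induction n with
  | zero =>
    intro y hy _
    have : v = y := by
      apply dist_eq_zero.1
      simpa using hy
    subst this
    simp
  | succ n ih =>
    intro y hy hxy
    -- the previous point on a geodesic from v to y
    obtain ⟨w, hw1, hw2⟩ := H.geo v y n (by rw [hy]; push_cast; linarith)
    have hwy : dist w y = 1 := by
      rw [hw2, hy]
      push_cast
      ring
    have hxw : dist x v + dist v w = dist x w := by
      have t1 := dist_triangle x v w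
      have t2 := dist_triangle x w y
      linarith
    have hx'w := ih w hw1 hxw
    by_contra hne
    have hlt : dist x' y < dist x' v + dist v y :=
      lt_of_le_of_ne (dist_triangle _ _ _) (fun h => hne h.symm)
    obtain ⟨a, ha⟩ := H.int x' y
    obtain ⟨b, hb⟩ := H.int x' v
    have hle : dist x' y ≤ dist x' v + n := by
      rw [ha, hb, hy] at hlt
      rw [ha, hb]
      have : a < b + (n + 1) := by exact_mod_cast hlt
      have : a ≤ b + n := by omega
      exact_mod_cast this
    obtain ⟨u, hu1, hu2⟩ := H.stable x' w y v (le_of_eq hwy) hx'w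
    have h1 := hty u (by rw [dist_comm]; exact hu2)
    have t := dist_triangle x u y
    rw [hy] at hxy
    push_cast at hxy
    linarith

/-- a point of the interval close to `z` -/
lemma near (H : DiscGeo X δ) (z a b : X) :
    ∃ v, dist a v + dist v b = dist a b ∧
      dist z v ≤ (dist z a + dist z b - dist a b) / 2 + δ + 1 := by
  set A := dist z a with hA
  set B := dist z b with hB
  set D := dist a b with hD
  have t1 : A ≤ B + D := by
    have := dist_triangle z b a
    rw [dist_comm b a] at this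
    exact this
  have t2 : B ≤ A + D := dist_triangle z a b
  have t3 : D ≤ A + B := by
    have := dist_triangle a z b
    rw [dist_comm a z] at this
    exact this
  have hnn : 0 ≤ (A + D - B) / 2 := by linarith
  have hk1 : ((⌊(A + D - B) / 2⌋₊ : ℕ) : ℝ) ≤ (A + D - B) / 2 := Nat.floor_le hnn
  have hk2 : (A + D - B) / 2 < (⌊(A + D - B) / 2⌋₊ : ℕ) + 1 := Nat.lt_floor_add_one _
  obtain ⟨v, hv1, hv2⟩ := H.geo a b ⌊(A + D - B) / 2⌋₊ (by linarith)
  refine ⟨v, by rw [hv1, hv2]; ring, ?_⟩
  have h4 := H.four z v a b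
  rw [dist_comm v a] at h4
  have hmax : max (dist z a + dist v b) (dist a v + dist z b) ≤ (A + B + D) / 2 + 1 := by
    refine max_le ?_ ?_
    · rw [hv2]; linarith
    · rw [hv1]; linarith
  linarith

/-- The type lemma: the value of an extremal function `f` at `y`, relative to `dist y z`, only
depends on the type of `y` on a ball around `z`. -/
lemma type_le (H : DiscGeo X δ) {f : X → ℝ} (hf : Extremal f) (z : X) {α : ℝ} (hα : f z ≤ α)
    (y y' : X)
    (hty : ∀ u, dist u z ≤ α + 2 * δ + 4 → dist y u - dist y z = dist y' u - dist y' z) :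
    f y - dist y z ≤ f y' - dist y' z := by
  refine le_of_forall_pos_le_add fun ε hε => ?_
  obtain ⟨x, hx⟩ := hf.2 y (min ε 2) (lt_min hε (by norm_num))
  have hx1 : f y + f x < dist y x + ε := lt_of_lt_of_le hx (by gcongr; exact min_le_left _ _)
  have hx2 : f y + f x < dist y x + 2 := lt_of_lt_of_le hx (by gcongr; exact min_le_right _ _)
  obtain ⟨v, hv1, hv2⟩ := H.near z y x
  have hzx := hf.1 z x
  have hzy := hf.1 z y
  have hzv : dist z v ≤ α + δ + 2 := by linarith
  have hv' : dist v z ≤ α + 2 * δ + 4 := by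
    have hδ : 0 ≤ δ := by
      have : Nonempty X := ⟨x⟩
      exact H.delta_nonneg
    rw [dist_comm]
    linarith
  have hcone : ∀ u, dist u v ≤ δ + 2 → dist y u - dist y v = dist y' u - dist y' v := by
    intro u hu
    have h1 := hty u (by
      have := dist_triangle u v z
      rw [dist_comm v z] at this
      linarith)
    have h2 := hty v hv'
    linarith
  obtain ⟨n, hn⟩ := H.int v x
  have h3 := H.cone y y' v hcone n x hn hv1
  have h4 := hty v hv'
  have h5 := hf.1 y' x
  linarith

lemma type_eq (H : DiscGeo X δ) {f : X → ℝ} (hf : Extremal f) (z : X) {α : ℝ} (hα : f z ≤ α)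
    (y y' : X)
    (hty : ∀ u, dist u z ≤ α + 2 * δ + 4 → dist y u - dist y z = dist y' u - dist y' z) :
    f y - dist y z = f y' - dist y' z :=
  le_antisymm (H.type_le hf z hα y y' hty) (H.type_le hf z hα y' y fun u hu => (hty u hu).symm)

/-- Every extremal function is small somewhere. -/
lemma exists_small [Nonempty X] (H : DiscGeo X δ) {f : X → ℝ} (hf : Extremal f) :
    ∃ z, f z ≤ δ + 1 := by
  have x := Classical.arbitrary X
  obtain ⟨y, hy⟩ := hf.2 x 1 one_pos
  have hfx := hf.1.nonneg x
  have hfy := hf.1.nonneg y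
  obtain ⟨D, hD⟩ := H.int x y
  have hk : ((min ⌊f x⌋₊ D : ℕ) : ℝ) ≤ dist x y := by
    rw [hD]
    exact_mod_cast min_le_right _ _
  obtain ⟨z, hz1, hz2⟩ := H.geo x y (min ⌊f x⌋₊ D) hk
  have hk1 : ((min ⌊f x⌋₊ D : ℕ) : ℝ) ≤ f x :=
    le_trans (by exact_mod_cast min_le_left _ _) (Nat.floor_le hfx)
  have hk2 : f x - ((min ⌊f x⌋₊ D : ℕ) : ℝ) ≤ 1 := by
    rcases le_total ⌊f x⌋₊ D with h | h
    · rw [min_eq_left h]
      have := Nat.lt_floor_add_one (f x)
      linarith
    · rw [min_eq_right h, ← hD]
      linarith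
  refine ⟨z, le_of_forall_pos_le_add fun ε hε => ?_⟩
  obtain ⟨w, hw⟩ := hf.2 z ε hε
  have h4 := H.four z w x y
  have h5 := hf.1 w y
  have h6 := hf.1 w x
  rw [dist_comm z x] at h4
  have hmax : max (dist x z + dist w y) (dist w x + dist z y) ≤ dist x y + f w + 1 := by
    refine max_le ?_ ?_
    · rw [hz1]; linarith
    · rw [hz2]; linarith
  linarith

/-- finitely many types -/
lemma exists_finite_rep [Nonempty X] (H : DiscGeo X δ) (z : X) (ρ : ℝ) :
    ∃ R : Set X, R.Finite ∧ ∀ y, ∃ y' ∈ R,
      ∀ u, dist u z ≤ ρ → dist y u - dist y z = dist y' u - dist y' z := by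
  have hB : Finite (Metric.closedBall z ρ) := (H.fin z ρ).to_subtype
  set τ : X → (Metric.closedBall z ρ → ℝ) := fun y u => dist y u - dist y z with hτ
  set S : Set ℝ := (fun m : ℤ => (m : ℝ)) '' Set.Icc (-⌈ρ⌉) ⌈ρ⌉ with hS
  have hSfin : S.Finite := (Set.finite_Icc _ _).image _
  have hrange : (Set.range τ).Finite := by
    refine (Set.Finite.pi (t := fun _ : Metric.closedBall z ρ => S) (fun _ => hSfin)).subset ?_
    rintro _ ⟨y, rfl⟩
    intro u _
    obtain ⟨a, ha⟩ := H.int y u
    obtain ⟨b, hb⟩ := H.int y z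
    have hu : dist (u : X) z ≤ ρ := u.2
    have h1 : |dist y u - dist y z| ≤ ρ := by
      rw [dist_comm y u, dist_comm y z]
      exact (abs_dist_sub_le _ _ _).trans hu
    have h2 := abs_le.1 h1
    have hc := Int.le_ceil ρ
    refine ⟨(a : ℤ) - b, ⟨?_, ?_⟩, ?_⟩
    · have : (-(⌈ρ⌉ : ℝ)) ≤ (a : ℝ) - b := by
        rw [← ha, ← hb]
        linarith [h2.1]
      exact_mod_cast this
    · have : (a : ℝ) - b ≤ (⌈ρ⌉ : ℝ) := by
        rw [← ha, ← hb]
        linarith [h2.2]
      exact_mod_cast this
    · simp only [hτ]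
      rw [ha, hb]
      push_cast
      ring
  refine ⟨Function.invFun τ '' Set.range τ, hrange.image _, fun y => ?_⟩
  refine ⟨Function.invFun τ (τ y), ⟨τ y, ⟨y, rfl⟩, rfl⟩, fun u hu => ?_⟩
  have h := Function.invFun_eq (f := τ) ⟨y, rfl⟩
  have := congrFun h ⟨u, hu⟩
  exact this.symm

end DiscGeo

end Vale.Agent.Lib.P172
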