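import Mathlib

/-!
# Definitions used in the statement of the P172 hand-in
-/

namespace Vale.Agent.Lib.P172

/-- Slim geodesic triangles in a graph (vertex form): for all geodesic edge paths `p`, `q`, `r`
forming a triangle with corners `x`, `y`, `z`, every vertex of the side `p` is within graph
distance `δ` of a vertex of one of the other two sides. -/
def SlimTriangles {V : Type} (Gr : SimpleGraph V) (δ : ℕ) : Prop :=
  ∀ (x y z : V) (p : Gr.Walk x y) (q : Gr.Walk y z) (r : Gr.Walk x z),
    p.length = Gr.dist x y → q.length = Gr.dist y z → r.length = Gr.dist x z →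
    ∀ v ∈ p.support, ∃ w, (w ∈ q.support ∨ w ∈ r.support) ∧ Gr.dist v w ≤ δ

/-- Injective metric space: every 1-Lipschitz map from a subset of a metric space extends to a
1-Lipschitz map on the whole space. -/
def IsInjectiveMetric (Y : Type) [MetricSpace Y] : Prop :=
  ∀ (B : Type) [MetricSpace B] (A : Set B) (φ : A → Y), LipschitzWith 1 φ →
    ∃ Φ : B → Y, LipschitzWith 1 Φ ∧ ∀ a : A, Φ a = φ a

/-- Reversible conical geodesic bicombing. -/
structure IsConicalBicombing {Y : Type} [MetricSpace Y] (σ : Y → Y → unitInterval → Y) :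
    Prop where
  zero : ∀ a b, σ a b 0 = a
  one : ∀ a b, σ a b 1 = b
  geodesic : ∀ a b (s t : unitInterval), dist (σ a b s) (σ a b t) = |(s : ℝ) - t| * dist a b
  conical : ∀ a b a' b' (t : unitInterval),
    dist (σ a b t) (σ a' b' t) ≤ (1 - (t : ℝ)) * dist a a' + t * dist b b'
  reversible : ∀ a b (t : unitInterval), σ a b t = σ b a (unitInterval.symm t)

end Vale.Agent.Lib.P172
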