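import Mathlib

/-!
# The graph metric of a connected graph, and Cayley graphs
-/

namespace Vale.Agent.Lib.P172

open SimpleGraph

variable {V : Type*} (Gr : SimpleGraph V)

/-- The graph metric of a connected graph. -/
@[reducible] noncomputable def graphMetric (hc : Gr.Connected) : MetricSpace V where
  dist x y := (Gr.dist x y : ℝ)
  dist_self x := by simp
  dist_comm x y := by rw [SimpleGraph.dist_comm]
  dist_triangle x y z := by exact_mod_cast hc.dist_triangle
  eq_of_dist_eq_zero {x y} h := by
    have : Gr.dist x y = 0 := by exact_mod_cast h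
    exact hc.dist_eq_zero_iff.1 this

variable {Gr}

lemma exists_between (hc : Gr.Connected) (x y : V) (k : ℕ) (hk : k ≤ Gr.dist x y) :
    ∃ u, Gr.dist x u = k ∧ Gr.dist u y = Gr.dist x y - k := by
  obtain ⟨p, hp⟩ := hc.exists_walk_length_eq_dist x y
  refine ⟨p.getVert k, ?_⟩
  have h1 := Gr.dist_le (p.take k)
  have h2 := Gr.dist_le (p.drop k)
  have h3 := hc.dist_triangle (u := x) (v := p.getVert k) (w := y)
  rw [Walk.take_length] at h1
  rw [Walk.drop_length] at h2
  have : k ⊓ p.length = k := by
    rw [hp]
    exact min_eq_left hk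
  rw [this] at h1
  omega

lemma dist_add_dist_of_mem_support (hc : Gr.Connected) {x y w : V} (p : Gr.Walk x y)
    (hp : p.length = Gr.dist x y) (hw : w ∈ p.support) :
    Gr.dist x w + Gr.dist w y = Gr.dist x y := by
  classical
  have h1 := Gr.dist_le (p.takeUntil w hw)
  have h2 := Gr.dist_le (p.dropUntil w hw)
  have h3 := hc.dist_triangle (u := x) (v := w) (w := y)
  have h4 := congrArg Walk.length (p.take_spec hw)
  rw [Walk.length_append] at h4
  omega

lemma exists_geodesic_through (hc : Gr.Connected) {x y v : V}
    (hv : Gr.dist x v + Gr.dist v y = Gr.dist x y) :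
    ∃ p : Gr.Walk x y, p.length = Gr.dist x y ∧ v ∈ p.support := by
  obtain ⟨p1, hp1⟩ := hc.exists_walk_length_eq_dist x v
  obtain ⟨p2, hp2⟩ := hc.exists_walk_length_eq_dist v y
  refine ⟨p1.append p2, ?_, ?_⟩
  · rw [Walk.length_append, hp1, hp2, hv]
  · rw [Walk.mem_support_append_iff]
    exact Or.inl (Walk.end_mem_support _)

section cayley

variable {G : Type*} [Group G] (S : Set G)

lemma cayley_reachable_mul (x : G) {g : G} (hg : g ∈ Subgroup.closure S) :
    (mulCayley S).Reachable x (x * g) := by
  induction hg using Subgroup.closure_induction generalizing x with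
  | mem s hs =>
    by_cases h : x = x * s
    · rw [← h]
    · exact (((mulCayley_adj' S x (x * s)).2 ⟨h, s, hs, Or.inl rfl⟩)).reachable
  | one => simp
  | mul a b _ _ iha ihb =>
    rw [← mul_assoc]
    exact (iha x).trans (ihb (x * a))
  | inv a _ iha =>
    have := iha (x * a⁻¹)
    rw [inv_mul_cancel_right] at this
    exact this.symm

lemma cayley_connected (hS : Subgroup.closure S = ⊤) : (mulCayley S).Connected := by
  have : Nonempty G := ⟨1⟩
  refine ⟨fun x y => ?_⟩
  have := cayley_reachable_mul S x (g := x⁻¹ * y) (by rw [hS]; trivial)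
  rwa [mul_inv_cancel_left] at this

/-- left multiplication as a graph homomorphism -/
def cayleyHom (g : G) : mulCayley S →g mulCayley S :=
  ⟨fun x => g * x, fun h => mulCayley_adj_mul_iff_right.2 h⟩

lemma cayley_dist_mul_le (hS : Subgroup.closure S = ⊤) (g x y : G) :
    (mulCayley S).dist (g * x) (g * y) ≤ (mulCayley S).dist x y := by
  obtain ⟨p, hp⟩ := (cayley_connected S hS).exists_walk_length_eq_dist x y
  have := (mulCayley S).dist_le (p.map (cayleyHom S g))
  rw [Walk.length_map, hp] at this
  exact this

lemma cayley_dist_mul (hS : Subgroup.closure S = ⊤) (g x y : G) :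
    (mulCayley S).dist (g * x) (g * y) = (mulCayley S).dist x y := by
  refine le_antisymm (cayley_dist_mul_le S hS g x y) ?_
  have := cayley_dist_mul_le S hS g⁻¹ (g * x) (g * y)
  rwa [inv_mul_cancel_left, inv_mul_cancel_left] at this

lemma cayley_neighbors_finite (hfin : S.Finite) (u : G) : {v | (mulCayley S).Adj u v}.Finite := by
  refine ((hfin.image (fun s => u * s)).union (hfin.image (fun s => u * s⁻¹))).subset ?_
  intro v hv
  rcases ((mulCayley_adj S u v).1 hv).2 with h | h
  · exact Or.inl ⟨_, h, by simp⟩
  · exact Or.inr ⟨_, h, by simp⟩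

lemma cayley_ball_finite (hS : Subgroup.closure S = ⊤) (hfin : S.Finite) (x : G) (n : ℕ) :
    {y | (mulCayley S).dist x y ≤ n}.Finite := by
  have hc := cayley_connected S hS
  induction n with
  | zero =>
    refine (Set.finite_singleton x).subset ?_
    intro y hy
    have : (mulCayley S).dist x y = 0 := Nat.le_zero.1 hy
    exact (hc.dist_eq_zero_iff.1 this).symm
  | succ n ih =>
    refine (ih.union (ih.biUnion fun u _ => cayley_neighbors_finite S hfin u)).subset ?_
    intro y hy
    rcases Nat.lt_or_ge n ((mulCayley S).dist x y) with h | h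
    · right
      have hy' : (mulCayley S).dist x y ≤ n + 1 := hy
      obtain ⟨u, hu1, hu2⟩ := exists_between hc x y n h.le
      refine Set.mem_biUnion (x := u) (le_of_eq hu1) ?_
      have : (mulCayley S).dist u y = 1 := by omega
      exact dist_eq_one_iff_adj.1 this
    · exact Or.inl h

end cayley

end Vale.Agent.Lib.P172
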