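import Mathlib
import Vale.Agent.Lib.P172.Hull

/-!
# The hull of a four-point hyperbolic space is four-point hyperbolic
-/

namespace Vale.Agent.Lib.P172

variable {X : Type*} [MetricSpace X]

namespace Hull

lemma sub_sub_le_dist (f g : Hull X) (x y : X) : dist x y - f.1 x - g.1 y ≤ dist f g := by
  have h1 := f.2.1 x y
  have h2 := (le_abs_self _).trans (abs_sub_le_dist f g y)
  linarith

lemma exists_dist_lt [Nonempty X] (f g : Hull X) {ε : ℝ} (hε : 0 < ε) :
    ∃ x y, dist f g < dist x y - f.1 x - g.1 y + ε := by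
  have h : dist f g - ε / 2 < ⨆ x, |f.1 x - g.1 x| := by
    rw [← dist_def]
    linarith
  obtain ⟨x, hx⟩ := exists_lt_of_lt_ciSup h
  rcases le_total 0 (f.1 x - g.1 x) with h0 | h0
  · rw [abs_of_nonneg h0] at hx
    obtain ⟨y, hy⟩ := f.2.2 x (ε / 2) (by positivity)
    refine ⟨y, x, ?_⟩
    rw [dist_comm y x]
    linarith
  · rw [abs_of_nonpos h0] at hx
    obtain ⟨y, hy⟩ := g.2.2 x (ε / 2) (by positivity)
    refine ⟨x, y, ?_⟩
    linarith

theorem four [Nonempty X] {δ : ℝ}
    (h4 : ∀ w x y z : X,
      dist w x + dist y z ≤ max (dist w y + dist x z) (dist x y + dist w z) + δ)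
    (a b c d : Hull X) :
    dist a b + dist c d ≤ max (dist a c + dist b d) (dist b c + dist a d) + δ := by
  refine le_of_forall_pos_le_add fun ε hε => ?_
  obtain ⟨w, x, h1⟩ := exists_dist_lt a b (ε := ε / 2) (by positivity)
  obtain ⟨y, z, h2⟩ := exists_dist_lt c d (ε := ε / 2) (by positivity)
  have h := h4 w x y z
  have e1 := sub_sub_le_dist a c w y
  have e2 := sub_sub_le_dist b d x z
  have e3 := sub_sub_le_dist b c x y
  have e4 := sub_sub_le_dist a d w z
  have hmax : max (dist w y + dist x z) (dist x y + dist w z) ≤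
      max (dist a c + dist b d) (dist b c + dist a d) + (a.1 w + b.1 x + c.1 y + d.1 z) := by
    refine max_le ?_ ?_
    · have := le_max_left (dist a c + dist b d) (dist b c + dist a d)
      linarith
    · have := le_max_right (dist a c + dist b d) (dist b c + dist a d)
      linarith
  linarith

end Hull

end Vale.Agent.Lib.P172
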