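import Mathlib
import Vale.Agent.Lib.P172.Cone
import Vale.Agent.Lib.P172.Bicomb

/-!
# Properness of E(X) and the geometric action
-/

namespace Vale.Agent.Lib.P172

open Filter Topology

variable {X : Type*} [MetricSpace X] {δ : ℝ}

namespace DiscGeo

theorem properSpace [Nonempty X] (H : DiscGeo X δ) : ProperSpace (Hull X) := by
  refine ⟨fun f0 r => ?_⟩
  have z := Classical.arbitrary X
  obtain ⟨R, hRfin, hR⟩ := H.exists_finite_rep z (f0.1 z + r + 2 * δ + 4)
  have hα : ∀ g ∈ Metric.closedBall f0 r, g.1 z ≤ f0.1 z + r := by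
    intro g hg
    have h1 := (abs_sub_le_iff.1 (Hull.abs_sub_le_dist g f0 z)).1
    have h2 : dist g f0 ≤ r := hg
    linarith
  have key : ∀ f ∈ Metric.closedBall f0 r, ∀ g ∈ Metric.closedBall f0 r, ∀ c : ℝ, 0 ≤ c →
      (∀ y ∈ R, |f.1 y - g.1 y| ≤ c) → dist f g ≤ c := by
    intro f hf g hg c hc h
    refine Hull.dist_le_of _ _ hc fun y => ?_
    obtain ⟨y', hy', hty⟩ := hR y
    have h1 := H.type_eq f.2 z (hα f hf) y y' hty
    have h2 := H.type_eq g.2 z (hα g hg) y y' hty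
    have : f.1 y - g.1 y = f.1 y' - g.1 y' := by linarith
    rw [this]
    exact h y' hy'
  have : Fintype R := hRfin.fintype
  rw [isCompact_iff_isSeqCompact]
  intro u hu
  set v : ℕ → (R → ℝ) := fun n y => (u n).1 y with hv
  have hbd : Bornology.IsBounded (Set.range v) := by
    rw [Metric.isBounded_iff_subset_closedBall (fun y : R => f0.1 y)]
    refine ⟨max r 0, ?_⟩
    rintro _ ⟨n, rfl⟩
    rw [Metric.mem_closedBall, dist_pi_le_iff (le_max_right _ _)]
    intro y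
    rw [Real.dist_eq]
    have h2 : dist (u n) f0 ≤ r := hu n
    exact ((Hull.abs_sub_le_dist (u n) f0 y).trans h2).trans (le_max_left _ _)
  obtain ⟨a, _, φ, hφ, hlim⟩ := tendsto_subseq_of_bounded hbd (fun n => Set.mem_range_self n)
  have hc : CauchySeq (u ∘ φ) := by
    have hcv := hlim.cauchySeq
    rw [Metric.cauchySeq_iff] at hcv ⊢
    intro ε hε
    obtain ⟨N, hN⟩ := hcv ε hε
    refine ⟨N, fun m hm n hn => lt_of_le_of_lt ?_ (hN m hm n hn)⟩
    refine key _ (hu _) _ (hu _) _ dist_nonneg fun y hy => ?_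
    have := dist_le_pi_dist ((v ∘ φ) m) ((v ∘ φ) n) ⟨y, hy⟩
    rw [Real.dist_eq] at this
    exact this
  obtain ⟨l, hl⟩ := cauchySeq_tendsto_of_complete hc
  exact ⟨l, Metric.isClosed_closedBall.mem_of_tendsto hl (Eventually.of_forall fun n => hu _),
    φ, hφ, hl⟩

section action

variable {Γ : Type*} [Group Γ] [MulAction Γ X] [IsIsometricSMul Γ X]

theorem cocompact (H : DiscGeo X δ) (z0 : X) (htrans : ∀ x : X, ∃ g : Γ, g • x = z0) :
    ∃ K : Set (Hull X), IsCompact K ∧ ∀ f : Hull X, ∃ g : Γ, g • f ∈ K := by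
  have : Nonempty X := ⟨z0⟩
  have := H.properSpace
  refine ⟨Metric.closedBall (Hull.emb z0) (δ + 1), isCompact_closedBall _ _, fun f => ?_⟩
  obtain ⟨z, hz⟩ := H.exists_small f.2
  obtain ⟨g, hg⟩ := htrans z
  refine ⟨g, ?_⟩
  rw [Metric.mem_closedBall, Hull.dist_emb, Hull.smul_apply, ← hg, inv_smul_smul]
  exact hz

theorem properlyDiscontinuous (z0 : X) (hfin : ∀ r : ℝ, {g : Γ | dist (g • z0) z0 ≤ r}.Finite) :
    ProperlyDiscontinuousSMul Γ (Hull X) := by
  refine ⟨fun {K L} hK hL => ?_⟩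
  obtain ⟨r1, hr1⟩ := hK.isBounded.subset_closedBall (Hull.emb z0)
  obtain ⟨r2, hr2⟩ := hL.isBounded.subset_closedBall (Hull.emb z0)
  refine (hfin (r1 + r2)).subset ?_
  intro g hg
  obtain ⟨l, ⟨k, hk, rfl⟩, hl⟩ := hg
  have h1 : dist k (Hull.emb z0) ≤ r1 := hr1 hk
  have h2 : dist (g • k) (Hull.emb z0) ≤ r2 := hr2 hl
  have h3 : dist (g • (Hull.emb z0 : Hull X)) (g • k) = dist (Hull.emb z0) k := dist_smul _ _ _
  have h4 := dist_triangle (g • (Hull.emb z0 : Hull X)) (g • k) (Hull.emb z0)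
  rw [Hull.smul_emb, Hull.dist_emb_emb] at h4
  rw [Hull.smul_emb] at h3
  rw [dist_comm] at h1
  show dist (g • z0) z0 ≤ r1 + r2
  linarith

end action

end DiscGeo

end Vale.Agent.Lib.P172
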