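import Mathlib

/-!
# Slim triangles imply the four point condition (discretely geodesic spaces)
-/

namespace Vale.Agent.Lib.P172

variable {X : Type*} [MetricSpace X] {δ : ℝ}

section

variable (geo : ∀ (x y : X) (k : ℕ), (k : ℝ) ≤ dist x y → ∃ u, dist x u = k ∧
    dist u y = dist x y - k)
  (slim : ∀ x y z v : X, dist x v + dist v y = dist x y →
    ∃ w, (dist y w + dist w z = dist y z ∨ dist x w + dist w z = dist x z) ∧ dist v w ≤ δ)

include geo slim

lemma slim_center_aux (w x z : X) : ∀ (n : ℕ) (u : X), dist u z = n →
    dist x u + dist u z = dist x z → (∃ a, dist x a + dist a w = dist x w ∧ dist u a ≤ δ) →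
    ∃ u a b, dist x u + dist u z = dist x z ∧ dist x a + dist a w = dist x w ∧
      dist z b + dist b w = dist z w ∧ dist u a ≤ δ ∧ dist u b ≤ δ + 1 := by
  intro n
  induction n with
  | zero =>
    rintro u hu hxu ⟨a, ha1, ha2⟩
    have huz : u = z := by
      apply dist_eq_zero.1
      simpa using hu
    subst huz
    refine ⟨u, a, u, hxu, ha1, by simp, ha2, ?_⟩
    have := (dist_nonneg (x := u) (y := a)).trans ha2
    simp only [dist_self]
    linarith
  | succ n ih =>
    rintro u hu hxu ⟨a, ha1, ha2⟩
    obtain ⟨u', h1, h2⟩ := geo u z 1 (by rw [hu]; push_cast; linarith)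
    rw [hu] at h2
    push_cast at h1 h2
    have h2' : dist u' z = n := by linarith
    have hxu' : dist x u' + dist u' z = dist x z := by
      have t1 := dist_triangle x u u'
      have t2 := dist_triangle x u' z
      rw [hu] at hxu
      push_cast at hxu
      linarith
    obtain ⟨w', hw', hd⟩ := slim x z w u' hxu'
    rcases hw' with hw' | hw'
    · refine ⟨u, a, w', hxu, ha1, hw', ha2, ?_⟩
      have := dist_triangle u u' w'
      linarith
    · exact ih u' h2' hxu' ⟨w', hw', hd⟩

lemma slim_center (int : ∀ x y : X, ∃ n : ℕ, dist x y = n) (w x z : X) :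
    ∃ u, dist x u + dist u z = dist x z ∧
      2 * dist w u + dist x z ≤ dist w x + dist w z + 4 * δ + 2 := by
  have hδ : 0 ≤ δ := by
    obtain ⟨w', _, h⟩ := slim x x x x (by simp)
    exact dist_nonneg.trans h
  obtain ⟨n, hn⟩ := int x z
  obtain ⟨u, a, b, h1, h2, h3, h4, h5⟩ := slim_center_aux geo slim w x z n x hn (by simp)
    ⟨x, by simp, by simpa using hδ⟩
  refine ⟨u, h1, ?_⟩
  have t1 := dist_triangle x a u
  have t2 := dist_triangle w a u
  have t3 := dist_triangle z b u
  have t4 := dist_triangle w b u
  rw [dist_comm a u] at t1 t2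
  rw [dist_comm b u] at t3 t4
  rw [dist_comm w a] at t2
  rw [dist_comm w b] at t4
  rw [dist_comm z u] at t3
  rw [dist_comm w x, dist_comm w z]
  linarith

theorem four_of_slim (int : ∀ x y : X, ∃ n : ℕ, dist x y = n) (w x y z : X) :
    dist w x + dist y z ≤ max (dist w y + dist x z) (dist x y + dist w z) + (6 * δ + 2) := by
  obtain ⟨u, hu1, hu2⟩ := slim_center geo slim int w y z
  obtain ⟨u', hu', hd⟩ := slim y z x u hu1
  have t0 := dist_triangle w u u'
  rcases hu' with h | h
  · have t1 := dist_triangle w u' z
    have t2 := dist_triangle w u' x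
    have : dist w x + dist y z ≤ dist w y + dist x z + (6 * δ + 2) := by
      rw [dist_comm x z]
      rw [dist_comm z u'] at h
      linarith
    exact this.trans (by gcongr; exact le_max_left _ _)
  · have t1 := dist_triangle w u' y
    have t2 := dist_triangle w u' x
    have : dist w x + dist y z ≤ dist x y + dist w z + (6 * δ + 2) := by
      rw [dist_comm x y]
      rw [dist_comm y u'] at h
      linarith
    exact this.trans (by gcongr; exact le_max_right _ _)

end

end Vale.Agent.Lib.P172
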