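import Mathlib
import Vale.Agent.Lib.P172.Defs
import Vale.Agent.Lib.P172.Proper
import Vale.Agent.Lib.P172.HullHyp
import Vale.Agent.Lib.P172.Graph
import Vale.Agent.Lib.P172.Slim

/-!
# Hyperbolic groups act geometrically on proper injective metric spaces
-/

namespace Vale.Agent.Lib.P172


theorem main (G : Type) [Group G] (S : Finset G) (hS : Subgroup.closure (S : Set G) = ⊤) (δ : ℕ)
    (hδ : SlimTriangles (SimpleGraph.mulCayley (S : Set G)) δ) :
    ∃ (Y : Type) (_ : MetricSpace Y) (_ : MulAction G Y),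
      ProperSpace Y ∧ IsInjectiveMetric Y ∧
      IsIsometricSMul G Y ∧ ProperlyDiscontinuousSMul G Y ∧
      (∃ K : Set Y, IsCompact K ∧ ∀ y : Y, ∃ g : G, g • y ∈ K) ∧
      (∃ σ : Y → Y → unitInterval → Y, IsConicalBicombing σ ∧
        ∀ (g : G) (a b : Y) (t : unitInterval), g • σ a b t = σ (g • a) (g • b) t) ∧
      (∀ a b c d : Y, dist a b + dist c d ≤
        max (dist a c + dist b d) (dist b c + dist a d) + (6 * δ + 2)) ∧
      (∃ e : G → Y, (∀ x y, dist (e x) (e y) = (SimpleGraph.mulCayley (S : Set G)).dist x y) ∧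
        (∀ g x, g • e x = e (g * x)) ∧ ∀ y, ∃ x, dist y (e x) ≤ 6 * δ + 3) := by
  classical
  have hc : (SimpleGraph.mulCayley (S : Set G)).Connected := cayley_connected _ hS
  letI : MetricSpace G := graphMetric (SimpleGraph.mulCayley (S : Set G)) hc
  have hdist : ∀ x y : G, dist x y = ((SimpleGraph.mulCayley (S : Set G)).dist x y : ℝ) := fun _ _ => rfl
  haveI : IsIsometricSMul G G := ⟨fun g => Isometry.of_dist_eq fun x y => by
    rw [hdist, hdist, smul_eq_mul, smul_eq_mul, cayley_dist_mul _ hS]⟩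
  have int : ∀ x y : G, ∃ n : ℕ, dist x y = n := fun x y => ⟨_, rfl⟩
  have geo : ∀ (x y : G) (k : ℕ), (k : ℝ) ≤ dist x y → ∃ u, dist x u = k ∧
      dist u y = dist x y - k := by
    intro x y k hk
    rw [hdist] at hk
    have hk' : k ≤ (SimpleGraph.mulCayley (S : Set G)).dist x y := by exact_mod_cast hk
    obtain ⟨u, h1, h2⟩ := exists_between hc x y k hk'
    refine ⟨u, by rw [hdist, h1], ?_⟩
    rw [hdist, hdist, h2, Nat.cast_sub hk']
  have slim : ∀ x y z v : G, dist x v + dist v y = dist x y →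
      ∃ w, (dist y w + dist w z = dist y z ∨ dist x w + dist w z = dist x z) ∧
        dist v w ≤ (δ : ℝ) := by
    intro x y z v hv
    simp only [hdist] at hv ⊢
    have hv' : (SimpleGraph.mulCayley (S : Set G)).dist x v + (SimpleGraph.mulCayley (S : Set G)).dist v y =
        (SimpleGraph.mulCayley (S : Set G)).dist x y := by exact_mod_cast hv
    obtain ⟨p, hp, hvp⟩ := exists_geodesic_through hc hv'
    obtain ⟨q, hq⟩ := hc.exists_walk_length_eq_dist y z
    obtain ⟨r, hr⟩ := hc.exists_walk_length_eq_dist x z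
    obtain ⟨w, hw, hd⟩ := hδ x y z p q r hp hq hr v hvp
    refine ⟨w, ?_, by exact_mod_cast hd⟩
    rcases hw with hw | hw
    · left
      exact_mod_cast dist_add_dist_of_mem_support hc q hq hw
    · right
      exact_mod_cast dist_add_dist_of_mem_support hc r hr hw
  have fin : ∀ (x : G) (r : ℝ), (Metric.closedBall x r).Finite := by
    intro x r
    refine (cayley_ball_finite (S : Set G) hS S.finite_toSet x ⌊r⌋₊).subset ?_
    intro y hy
    have h1 : dist y x ≤ r := hy
    rw [dist_comm, hdist] at h1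
    exact Nat.le_floor h1
  have H : DiscGeo G (6 * (δ : ℝ) + 2) := ⟨int, geo, fin, four_of_slim geo slim int⟩
  have hne : Nonempty G := ⟨1⟩
  refine ⟨Hull G, inferInstance, inferInstance, H.properSpace, ?_, inferInstance, ?_, ?_, ?_, ?_,
    ?_⟩
  · intro B _ A φ hφ
    exact Hull.injective A φ hφ
  · refine DiscGeo.properlyDiscontinuous (1 : G) fun r => ?_
    refine (fin 1 r).subset ?_
    intro g hg
    have : dist (g • (1 : G)) 1 ≤ r := hg
    rw [smul_eq_mul, mul_one] at this
    exact this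
  · exact H.cocompact (1 : G) fun x => ⟨x⁻¹, by simp⟩
  · exact ⟨Hull.comb, ⟨Hull.comb_zero, Hull.comb_one, Hull.dist_comb, Hull.dist_comb_comb_le,
      Hull.comb_symm⟩, Hull.smul_comb⟩
  · exact Hull.four H.four
  · refine ⟨Hull.emb, fun x y => ?_, fun g x => ?_, fun y => ?_⟩
    · rw [Hull.dist_emb_emb, hdist]
    · rw [Hull.smul_emb, smul_eq_mul]
    · obtain ⟨z, hz⟩ := H.exists_small y.2
      refine ⟨z, ?_⟩
      rw [Hull.dist_emb]
      linarith

end Vale.Agent.Lib.P172
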